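import Mathlib
import Vale.Agent.Lib.P204.Defs
import Vale.Agent.Lib.P204.DefsBundle
import Vale.Agent.Lib.P204.Twisted

namespace Vale.Agent.Results.P204.TorusBundleFibreInvariant

open Vale.Agent.Lib.P204

/-- Donaldson's tamed-to-compatible question has an affirmative answer on every `T³`-bundle
over the circle, for almost complex structures invariant under translations along the fibres.

Here `M = 1 ⊕ A` with `A ∈ SL(3, ℤ)`, and `X_M = ℝ⁴ / Γ`, where `Γ` is generated by the
translations by `0 × ℤ³` and by the deck transformation `x ↦ M x + e₀`; `X_M` is the mapping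
torus of the automorphism `A` of `T³`.  Tensor fields on `X_M` are `Γ`-invariant tensor fields
on `ℝ⁴`.  If `J` is a smooth almost complex structure on `X_M` whose lift depends only on the
base coordinate `x 0`, and `J` is tamed by some symplectic form on `X_M`, then some symplectic
form on `X_M` is compatible with `J`. -/
theorem result (M : Matrix (Fin 4) (Fin 4) ℤ) (hdet : M.det = 1)
    (h00 : M 0 0 = 1) (hrow : ∀ j, j ≠ 0 → M 0 j = 0) (hcol : ∀ i, i ≠ 0 → M i 0 = 0)
    (J : (Fin 4 → ℝ) → Matrix (Fin 4) (Fin 4) ℝ)
    (hJ : IsAlmostComplexStructureOn M J)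
    (hinv : ∀ x y : Fin 4 → ℝ, x 0 = y 0 → J x = J y)
    (htamed : ∃ ω, IsSymplecticFormOn M ω ∧ Tames ω J) :
    ∃ ω', IsSymplecticFormOn M ω' ∧ IsCompatibleWith ω' J :=
  tamed_to_compatible_bundle M hdet h00 hrow hcol J hJ hinv htamed

end Vale.Agent.Results.P204.TorusBundleFibreInvariant
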