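import Mathlib
import Vale.Agent.Lib.P204.Defs
import Vale.Agent.Lib.P204.Main

namespace Vale.Agent.Results.P204.TorusT3Invariant

open Vale.Agent.Lib.P204

/-- Donaldson's tamed-to-compatible question has an affirmative answer for every smooth almost
complex structure on the four-torus `T⁴ = ℝ⁴/ℤ⁴` that is invariant under translations in the
last three coordinates (that is, `J x` depends only on `x 0`): if such a `J` is tamed by some
symplectic form on `T⁴` (not assumed invariant), then some symplectic form on `T⁴` is
compatible with `J`. -/
theorem result (J : (Fin 4 → ℝ) → Matrix (Fin 4) (Fin 4) ℝ)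
    (hJ : IsAlmostComplexStructure J)
    (hinv : ∀ x y : Fin 4 → ℝ, x 0 = y 0 → J x = J y)
    (htamed : ∃ ω, IsSymplecticForm ω ∧ Tames ω J) :
    ∃ ω', IsSymplecticForm ω' ∧ IsCompatibleWith ω' J :=
  tamed_to_compatible J hJ hinv htamed

end Vale.Agent.Results.P204.TorusT3Invariant
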