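import Mathlib
import Vale.Agent.Lib.P204.Defs
import Vale.Agent.Lib.P204.Criterion

namespace Vale.Agent.Results.P204.TorusT3InvariantCriterion

open Vale.Agent.Lib.P204 Matrix

/-- For a smooth almost complex structure `J` on the four-torus `T⁴ = ℝ⁴/ℤ⁴` that is invariant
under translations in the last three coordinates (`J x` depends only on `x 0`):

* `J` is tamed by a symplectic form if and only if `J` is compatible with a symplectic form
  (Donaldson's question has an affirmative answer for these `J`), and
* this happens if and only if there is a constant antisymmetric matrix `β` (a constant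
  two-form) that is positive on every complex line
  `L x = {v | v 0 = 0 ∧ (J x v) 0 = 0}`, the maximal `J x`-invariant subspace of the tangent
  space of the `T³`-orbit through `x`. -/
theorem result (J : (Fin 4 → ℝ) → Matrix (Fin 4) (Fin 4) ℝ)
    (hJ : IsAlmostComplexStructure J)
    (hinv : ∀ x y : Fin 4 → ℝ, x 0 = y 0 → J x = J y) :
    ((∃ ω, IsSymplecticForm ω ∧ Tames ω J) ↔ ∃ ω, IsSymplecticForm ω ∧ IsCompatibleWith ω J) ∧
    ((∃ ω, IsSymplecticForm ω ∧ Tames ω J) ↔
      ∃ β : Matrix (Fin 4) (Fin 4) ℝ, βᵀ = -β ∧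
        ∀ (x v : Fin 4 → ℝ), v ≠ 0 → v 0 = 0 → (J x *ᵥ v) 0 = 0 →
          0 < v ⬝ᵥ (β *ᵥ (J x *ᵥ v))) :=
  tamed_iff_compatible_iff_beta J hJ hinv

end Vale.Agent.Results.P204.TorusT3InvariantCriterion
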